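import Mathlib

/-! Kuranishi at a fixed point, calculus part: a `C^1` map `Q` with `Q 0 = 0` and injective
derivative on a finite-dimensional space has `‖Q‖` strictly increasing along short rays. -/

namespace Kur94
open Set Filter Topology Metric
open scoped InnerProductSpace

variable {W V : Type*} [NormedAddCommGroup W] [NormedSpace ℝ W]
  [NormedAddCommGroup V] [InnerProductSpace ℝ V]

theorem inner_pos_aux {a b z : V} (hz : z ≠ 0) (ha : ‖a - z‖ ≤ ‖z‖ / 4)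
    (hb : ‖b - z‖ ≤ ‖z‖ / 4) : 0 < ⟪a, b⟫_ℝ := by
  have h0 : 0 < ‖z‖ := norm_pos_iff.2 hz
  have e : ⟪a, b⟫_ℝ = ‖z‖ ^ 2 + ⟪z, b - z⟫_ℝ + ⟪a - z, z⟫_ℝ + ⟪a - z, b - z⟫_ℝ := by
    rw [← real_inner_self_eq_norm_sq]
    simp only [inner_sub_left, inner_sub_right]
    ring
  have h1 := abs_real_inner_le_norm z (b - z)
  have h2 := abs_real_inner_le_norm (a - z) z
  have h3 := abs_real_inner_le_norm (a - z) (b - z)
  have h1' := (abs_le.1 h1).1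
  have h2' := (abs_le.1 h2).1
  have h3' := (abs_le.1 h3).1
  have k1 : ‖z‖ * ‖b - z‖ ≤ ‖z‖ * (‖z‖ / 4) := by gcongr
  have k2 : ‖a - z‖ * ‖z‖ ≤ (‖z‖ / 4) * ‖z‖ := by gcongr
  have k3 : ‖a - z‖ * ‖b - z‖ ≤ (‖z‖ / 4) * (‖z‖ / 4) := by gcongr
  rw [e]
  nlinarith [mul_pos h0 h0]

/-- radial derivative of `‖Q‖²` is positive near `0`. -/
theorem radial_pos [FiniteDimensional ℝ W] {Q : W → V} (hQ : ContDiffAt ℝ 1 Q 0) (Q0 : Q 0 = 0)
    (hA : Function.Injective (fderiv ℝ Q 0)) :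
    ∃ r0 > 0, ∀ c : W, ‖c‖ < r0 →
      DifferentiableAt ℝ Q c ∧ (c ≠ 0 → 0 < ⟪Q c, fderiv ℝ Q c c⟫_ℝ) := by
  set A := fderiv ℝ Q 0 with hAdef
  obtain ⟨K, K0, hK⟩ := (A : W →ₗ[ℝ] V).exists_antilipschitzWith (LinearMap.ker_eq_bot.2 hA)
  have hK' : ∀ c, ‖c‖ ≤ K * ‖A c‖ := fun c => by
    simpa using hK.le_mul_dist c 0
  have Kp : (0 : ℝ) < K := K0
  have hη : (0 : ℝ) < 1 / (4 * K) := by positivity
  have hd : HasFDerivAt Q A 0 := (hQ.differentiableAt one_ne_zero).hasFDerivAt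
  have e1 : ∀ᶠ c in 𝓝 (0 : W), ‖Q c - A c‖ ≤ 1 / (4 * K) * ‖c‖ := by
    have := hd.isLittleO.def hη
    simpa [Q0] using this
  have e2 : ∀ᶠ c in 𝓝 (0 : W), ‖fderiv ℝ Q c - A‖ < 1 / (4 * K) := by
    have hc : ContinuousAt (fderiv ℝ Q) 0 := hQ.continuousAt_fderiv one_ne_zero
    have := Metric.tendsto_nhds.1 hc _ hη
    simpa [dist_eq_norm] using this
  have e3 : ∀ᶠ c in 𝓝 (0 : W), DifferentiableAt ℝ Q c :=
    (hQ.eventually (by simp)).mono fun c hc => hc.differentiableAt one_ne_zero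
  obtain ⟨r0, r0p, hr⟩ := Metric.eventually_nhds_iff.1 (e1.and (e2.and e3))
  refine ⟨r0, r0p, fun c hc => ?_⟩
  obtain ⟨h1, h2, h3⟩ := hr (y := c) (by simpa using hc)
  refine ⟨h3, fun c0 => ?_⟩
  have hb : 1 / (4 * K) * ‖c‖ ≤ ‖A c‖ / 4 := by
    have := hK' c
    rw [div_mul_eq_mul_div, one_mul, div_le_div_iff₀ (by positivity) (by positivity)]
    nlinarith
  refine inner_pos_aux (z := A c) (fun h => c0 (hA (by simpa using h))) (h1.trans hb) ?_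
  refine le_trans ?_ hb
  calc ‖fderiv ℝ Q c c - A c‖ = ‖(fderiv ℝ Q c - A) c‖ := by simp
    _ ≤ ‖fderiv ℝ Q c - A‖ * ‖c‖ := ContinuousLinearMap.le_opNorm _ _
    _ ≤ _ := by gcongr

/-- `‖Q (r • w)‖` is continuous and strictly increasing for `0 ≤ r < r0`. -/
theorem ray_mono {Q : W → V} {r0 : ℝ}
    (h : ∀ c : W, ‖c‖ < r0 →
      DifferentiableAt ℝ Q c ∧ (c ≠ 0 → 0 < ⟪Q c, fderiv ℝ Q c c⟫_ℝ))
    {w : W} (hw : ‖w‖ = 1) :
    StrictMonoOn (fun r : ℝ => ‖Q (r • w)‖) (Ico 0 r0) ∧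
      ContinuousOn (fun r : ℝ => ‖Q (r • w)‖) (Ico 0 r0) := by
  have hn : ∀ r ∈ Ico (0 : ℝ) r0, ‖r • w‖ < r0 := fun r hr => by
    rw [norm_smul, hw, mul_one, Real.norm_eq_abs, abs_of_nonneg hr.1]; exact hr.2
  have hD : ∀ r ∈ Ico (0 : ℝ) r0,
      HasDerivAt (fun r : ℝ => Q (r • w)) (fderiv ℝ Q (r • w) w) r := fun r hr => by
    have h1 : HasDerivAt (fun r : ℝ => r • w) w r := by
      simpa using (hasDerivAt_id r).smul_const w
    exact (h _ (hn r hr)).1.hasFDerivAt.comp_hasDerivAt r h1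
  have hc : ContinuousOn (fun r : ℝ => ‖Q (r • w)‖) (Ico 0 r0) := fun r hr =>
    (hD r hr).continuousAt.norm.continuousWithinAt
  refine ⟨?_, hc⟩
  have hs : StrictMonoOn (fun r : ℝ => ‖Q (r • w)‖ ^ 2) (Ico 0 r0) := by
    refine strictMonoOn_of_deriv_pos (convex_Ico _ _) (hc.pow 2) fun r hr => ?_
    rw [interior_Ico] at hr
    have hr' : r ∈ Ico (0 : ℝ) r0 := ⟨hr.1.le, hr.2⟩
    rw [(hD r hr').norm_sq.deriv]
    have hw0 : r • w ≠ 0 := smul_ne_zero hr.1.ne' (by rintro rfl; simp at hw)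
    have := (h _ (hn r hr')).2 hw0
    rw [map_smul, inner_smul_right] at this
    have := (mul_pos_iff_of_pos_left hr.1).1 this
    positivity
  intro a ha b hb hab
  exact lt_of_pow_lt_pow_left₀ 2 (norm_nonneg _) (hs ha hb hab)

end Kur94
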