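import Crest.Agent.X212.Kur94.Par

/-! Kuranishi at an `S¹`-fixed point, product form `G : V × X → F`, `D = DG (0, x0)`,
`T = D (0, ·)` injective, `π : F → C` a cokernel of `T`, `L = D (·, 0)`.
`kur_top`: `π L` onto, `dim V = dim C + 2`: one regular orbit.  `kur_above`: `π L` injective: no
solution with `w ≠ 0`.  `exists_generic`: the parameters can be chosen of maximal rank at finitely
many points at once. -/

namespace Kur94
open Set Filter Topology Metric Module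
open scoped InnerProductSpace

section lin
variable {V X F C : Type*} [AddCommGroup V] [Module ℝ V] [AddCommGroup X] [Module ℝ X]
  [AddCommGroup F] [Module ℝ F] [AddCommGroup C] [Module ℝ C]
  (D : V × X →ₗ[ℝ] F) (π : F →ₗ[ℝ] C)

theorem split (w : V) (ξ : X) : D (w, ξ) = D (w, 0) + D (0, ξ) := by rw [← map_add]; simp

theorem surj_of_coker (hπ : ∀ f, π f = 0 → ∃ ξ, D (0, ξ) = f)
    (hL : ∀ c, ∃ w, π (D (w, 0)) = c) : Function.Surjective D := fun f => by
  obtain ⟨w, hw⟩ := hL (π f)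
  obtain ⟨ξ, hξ⟩ := hπ (f - D (w, 0)) (by rw [map_sub, hw, sub_self])
  exact ⟨(w, ξ), by rw [split, hξ]; abel⟩

theorem inj_of_coker (hπ : ∀ ξ, π (D (0, ξ)) = 0) (hT : ∀ ξ, D (0, ξ) = 0 → ξ = 0)
    (hL : ∀ w, π (D (w, 0)) = 0 → w = 0) : Function.Injective D :=
  (injective_iff_map_eq_zero _).2 fun ⟨w, ξ⟩ h => by
    have h1 : w = 0 := hL w (by
      have := congrArg π h
      rwa [split, map_add, hπ, add_zero, map_zero] at this)
    subst h1
    rw [hT ξ h]; rfl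

theorem finrank_ker_add [FiniteDimensional ℝ V] (hπ : ∀ f, π f = 0 ↔ ∃ ξ, D (0, ξ) = f)
    (hT : ∀ ξ, D (0, ξ) = 0 → ξ = 0) (hL : ∀ c, ∃ w, π (D (w, 0)) = c) :
    finrank ℝ C + finrank ℝ D.ker = finrank ℝ V := by
  let M : V →ₗ[ℝ] C := π ∘ₗ D ∘ₗ LinearMap.inl ℝ V X
  have h1 := M.finrank_range_add_finrank_ker
  rw [(LinearMap.range_eq_top (f := M)).2 hL, finrank_top] at h1
  rw [← h1]
  congr 1
  let m : D.ker →ₗ[ℝ] M.ker := ((LinearMap.fst ℝ V X).domRestrict D.ker).codRestrict _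
    fun ⟨⟨w, ξ⟩, h⟩ => by
      have := congrArg π (show D (w, ξ) = 0 from h)
      rwa [split, map_add, (hπ _).2 ⟨ξ, rfl⟩, add_zero, map_zero] at this
  refine (LinearEquiv.ofBijective m ⟨(injective_iff_map_eq_zero _).2 ?_, ?_⟩).finrank_eq
  · rintro ⟨⟨w, ξ⟩, h⟩ h0
    obtain rfl : w = 0 := congrArg Subtype.val h0
    obtain rfl := hT ξ h
    rfl
  · rintro ⟨w, hw⟩
    obtain ⟨ξ, hξ⟩ := (hπ _).1 (show π (D (w, 0)) = 0 from hw)
    refine ⟨⟨(w, -ξ), ?_⟩, rfl⟩
    have : D (0, -ξ) = -D (0, ξ) := by rw [← map_neg]; simp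
    rw [LinearMap.mem_ker, split, this, hξ, add_neg_cancel]

end lin

variable {X F V C : Type*} [NormedAddCommGroup X] [NormedSpace ℝ X] [CompleteSpace X]
  [NormedAddCommGroup F] [NormedSpace ℝ F] [CompleteSpace F] [AddCommGroup C] [Module ℝ C]

/-- **Levels above the top one**: no solution near `(0, x0)` except the fixed point. -/
theorem kur_above [NormedAddCommGroup V] [NormedSpace ℝ V] [FiniteDimensional ℝ V]
    {G : V × X → F} {D : V × X →L[ℝ] F} {x0 : X} (hG : HasFDerivAt G D (0, x0))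
    (G0 : G (0, x0) = 0) (π : F →ₗ[ℝ] C) (hπ : ∀ ξ, π (D (0, ξ)) = 0)
    (hT : ∀ ξ, D (0, ξ) = 0 → ξ = 0) (hcl : IsClosed (range fun ξ => D (0, ξ)))
    (hL : ∀ w, π (D (w, 0)) = 0 → w = 0) :
    ∀ᶠ p in 𝓝 ((0, x0) : V × X), G p = 0 → p = (0, x0) := by
  have : CompleteSpace V := FiniteDimensional.complete ℝ V
  refine isolated hG G0 (inj_of_coker (D : V × X →ₗ[ℝ] F) π hπ hT hL) ?_
  have h := Submodule.isClosed_sup_finiteDimensional
    ((D : V × X →ₗ[ℝ] F) ∘ₗ LinearMap.inr ℝ V X).range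
    ((D : V × X →ₗ[ℝ] F) ∘ₗ LinearMap.inl ℝ V X).range hcl
  convert h using 1
  ext f
  simp only [mem_range, SetLike.mem_coe, Submodule.mem_sup, LinearMap.mem_range]
  constructor
  · rintro ⟨⟨w, ξ⟩, rfl⟩
    exact ⟨_, ⟨ξ, rfl⟩, _, ⟨w, rfl⟩, by
      rw [add_comm]; exact (split (D : V × X →ₗ[ℝ] F) w ξ).symm⟩
  · rintro ⟨_, ⟨ξ, rfl⟩, _, ⟨w, rfl⟩, rfl⟩
    exact ⟨(w, ξ), by rw [add_comm]; exact split (D : V × X →ₗ[ℝ] F) w ξ⟩

/-- **Top level**: exactly one regular orbit with `‖w‖ = ε`. -/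
theorem kur_top [NormedAddCommGroup V] [InnerProductSpace ℂ V] [NormedSpace ℝ V]
    [IsScalarTower ℝ ℂ V] [FiniteDimensional ℝ V] {Γ : Type*} (chi : Γ → ℂ) (act : Γ → X → X)
    {G : V × X → F} {x0 : X} (hG : ContDiffAt ℝ 1 G (0, x0)) (G0 : G (0, x0) = 0)
    (π : F →ₗ[ℝ] C) (hπ : ∀ f, π f = 0 ↔ ∃ ξ, fderiv ℝ G (0, x0) (0, ξ) = f)
    (hT : ∀ ξ, fderiv ℝ G (0, x0) (0, ξ) = 0 → ξ = 0)
    (hL : ∀ c, ∃ w, π (fderiv ℝ G (0, x0) (w, 0)) = c)
    (hdim : finrank ℝ V = finrank ℝ C + 2)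
    (hchi : ∀ g, ‖chi g‖ = 1) (hsurj : ∀ u : ℂ, ‖u‖ = 1 → ∃ g, chi g = u)
    (hd : ∀ g, DifferentiableAt ℝ (act g) x0)
    (heq : ∀ U ∈ 𝓝 x0, ∀ᶠ x in 𝓝 x0, ∀ g, act g x ∈ U)
    (hz : ∀ᶠ p in 𝓝 ((0, x0) : V × X), G p = 0 → ∀ g, G (chi g • p.1, act g p.2) = 0) :
    ∃ U ∈ 𝓝 ((0, x0) : V × X),
      (∀ p ∈ U, ∀ q ∈ U, G p = 0 → G q = 0 → ‖p.1‖ = ‖q.1‖ →
        ∃ g, chi g • p.1 = q.1 ∧ act g p.2 = q.2) ∧
      (∀ p ∈ U, G p = 0 → p.1 = 0 → p.2 = x0) ∧
      (∀ p ∈ U, G p = 0 → p.1 ≠ 0 → (∀ g, chi g = 1 → act g p.2 = p.2) ∧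
        ∀ (f : F) (c : ℂ), ∃! k : V × X, fderiv ℝ G p k = f ∧ ⟪p.1, k.1⟫_ℂ = c) ∧
      ∀ U' ∈ 𝓝 ((0, x0) : V × X), ∃ ε0 > 0, ∀ ε ∈ Ioo 0 ε0,
        ∃ p ∈ U', G p = 0 ∧ ‖p.1‖ = ε := by
  have : CompleteSpace V := FiniteDimensional.complete ℝ V
  have hk := finrank_ker_add (fderiv ℝ G (0, x0) : V × X →ₗ[ℝ] F) π hπ hT hL
  obtain ⟨U, hU, u1, u2, u3⟩ := param_one chi (fun g (p : V × X) => (chi g • p.1, act g p.2))
    (ContinuousLinearMap.fst ℝ V X) hG G0 rfl
    (surj_of_coker (fderiv ℝ G (0, x0) : V × X →ₗ[ℝ] F) π (fun f => (hπ f).1) hL) (by omega)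
    (fun ⟨w, ξ⟩ h h0 => by
      obtain rfl : w = 0 := h0
      rw [hT ξ h]; rfl) hchi hsurj
    (fun g => (differentiableAt_fst.const_smul (chi g)).prodMk
      (DifferentiableAt.comp ((0, x0) : V × X) (hd g) differentiableAt_snd))
    (fun U hU => by
      obtain ⟨A, hA, B, hB, hAB⟩ := mem_nhds_prod_iff.1 hU
      obtain ⟨r, rp, hr⟩ := Metric.mem_nhds_iff.1 hA
      filter_upwards [prod_mem_nhds (ball_mem_nhds (0 : V) rp) (heq B hB)] with p hp g
      refine hAB ⟨hr ?_, hp.2 g⟩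
      simpa [norm_smul, hchi] using hp.1)
    (hz.mono fun p h gp g => ⟨h gp g, rfl⟩)
  refine ⟨U, hU, fun p hp q hq gp gq h => ?_, fun p hp gp h => ?_, fun p hp gp h => ?_, u3⟩
  · obtain ⟨g, hg⟩ := u1 p hp q hq gp gq h
    exact ⟨g, congrArg Prod.fst hg, congrArg Prod.snd hg⟩
  · by_contra hne
    exact (u2 p hp gp fun e => hne (congrArg Prod.snd e)).1 h
  · obtain ⟨-, b, c⟩ := u2 p hp gp fun e => h (congrArg Prod.fst e)
    exact ⟨fun g hg => congrArg Prod.snd ((b g).2 hg), c⟩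

/-- **Generic parameters.** Finitely many surjections `e a : Θ → C a`: one sequence `θ` has
maximal rank in every `C a` on every initial segment. -/
theorem exists_generic {K Θ A : Type*} [Field K] [Infinite K] [AddCommGroup Θ] [Module K Θ]
    [Finite A] {C : A → Type*} [∀ a, AddCommGroup (C a)] [∀ a, Module K (C a)]
    [∀ a, FiniteDimensional K (C a)] (e : ∀ a, Θ →ₗ[K] C a) (he : ∀ a, Function.Surjective (e a))
    (n : ℕ) : ∃ θ : Fin n → Θ, ∀ a,
      finrank K (Submodule.span K (range fun i => e a (θ i))) = min n (finrank K (C a)) := by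
  classical
  induction n with
  | zero => exact ⟨fun i => i.elim0, fun a => by simp⟩
  | succ n ih =>
    obtain ⟨θ, hθ⟩ := ih
    set S : ∀ a, Submodule K (C a) := fun a => Submodule.span K (range fun i => e a (θ i))
    obtain ⟨t, ht⟩ := Submodule.exists_forall_notMem_of_forall_ne_top
      (fun a : {a // S a ≠ ⊤} => (S a).comap (e a)) fun a h => a.2 (by
        rw [eq_top_iff]
        intro c _
        obtain ⟨y, rfl⟩ := he a c
        exact (show y ∈ (S a).comap (e a) from h ▸ Submodule.mem_top))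
    refine ⟨Fin.cons t θ, fun a => ?_⟩
    have hr : (range fun i : Fin (n + 1) => e a ((Fin.cons t θ : Fin (n + 1) → Θ) i)) =
        insert (e a t) (range fun i => e a (θ i)) := by
      rw [← Fin.range_cons]
      congr 1
      funext i
      refine Fin.cases ?_ (fun j => ?_) i <;> simp
    rw [hr, Submodule.span_insert, sup_comm]
    by_cases h : S a = ⊤
    · have h1 := hθ a
      change finrank K (S a) = _ at h1
      change finrank K (S a ⊔ _ : Submodule K (C a)) = _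
      rw [h, finrank_top] at h1
      rw [h, top_sup_eq, finrank_top]
      omega
    · have h1 := hθ a
      change finrank K (S a) = _ at h1
      change finrank K (S a ⊔ _ : Submodule K (C a)) = _
      have h2 := Submodule.finrank_lt h
      have h3 : e a t ∉ S a := ht ⟨a, h⟩
      rw [Submodule.finrank_sup_span_singleton h3]
      omega

/-- maximal rank, read for the map `w ↦ ∑ w i • c i`. -/
theorem rank_cases {K C : Type*} [Field K] [AddCommGroup C] [Module K C] [FiniteDimensional K C]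
    {n : ℕ} (c : Fin n → C) (h : finrank K (Submodule.span K (range c)) = min n (finrank K C)) :
    (n ≤ finrank K C → ∀ w : Fin n → K, ∑ i, w i • c i = 0 → w = 0) ∧
    (finrank K C ≤ n → ∀ y, ∃ w : Fin n → K, ∑ i, w i • c i = y) := by
  refine ⟨fun hn w hw => ?_, fun hn y => ?_⟩
  · have : LinearIndependent K c := by
      rw [linearIndependent_iff_card_eq_finrank_span, Fintype.card_fin, Set.finrank, h]
      omega
    exact funext (Fintype.linearIndependent_iff.1 this w hw)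
  · have : Submodule.span K (range c) = ⊤ :=
      Submodule.eq_top_of_finrank_eq (by rw [h]; omega)
    exact (Submodule.mem_span_range_iff_exists_fun K).1 (this ▸ Submodule.mem_top)

end Kur94
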