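import Crest.Agent.X212.Kur94.Calc

/-! Kuranishi at a fixed point.

`G = 0` is the equation, `lam : E → W` a coordinate on the zero set near the fixed point `x0`
(`(G, lam)` has invertible derivative), `P : E → V` the parameter whose size is prescribed.
A family `act g` of maps (no group structure is used) preserves the zeros and `‖P‖` and acts on
`lam` by maps `sig g` that are transitive on the spheres of `W`.  Then `{G = 0, ‖P‖ = ε}` is near
`x0` exactly one orbit, and it is regular. -/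

namespace Kur94
open Set Filter Topology Metric
open scoped InnerProductSpace

variable {E F W V : Type*} [NormedAddCommGroup E] [NormedSpace ℝ E] [CompleteSpace E]
  [NormedAddCommGroup F] [NormedSpace ℝ F] [CompleteSpace F]
  [NormedAddCommGroup W] [NormedSpace ℝ W]
  [NormedAddCommGroup V] [InnerProductSpace ℝ V]

/-- bijectivity of the derivative is an open condition. -/
theorem eventually_bij {F' : Type*} [NormedAddCommGroup F'] [NormedSpace ℝ F'] [CompleteSpace F']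
    {X : Type*} [TopologicalSpace X] {A : X → E →L[ℝ] F'} {x0 : X} (hA : ContinuousAt A x0)
    (h : Function.Bijective (A x0)) : ∀ᶠ x in 𝓝 x0, Function.Bijective (A x) := by
  have hm : A x0 ∈ range ((↑) : (E ≃L[ℝ] F') → E →L[ℝ] F') :=
    ⟨ContinuousLinearEquiv.ofBijective (A x0) (LinearMap.ker_eq_bot.2 h.1)
      (LinearMap.range_eq_top.2 h.2), ContinuousLinearEquiv.coe_ofBijective _ _ _⟩
  filter_upwards [hA (ContinuousLinearEquiv.isOpen.mem_nhds hm)] with x hx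
  obtain ⟨e, he⟩ := hx
  rw [← he]
  exact e.bijective

/-- The zero set of `G` near `x0` is parametrised by `lam`. -/
theorem exists_param [FiniteDimensional ℝ W] {G : E → F} {lam : E → W} {x0 : E}
    (hG : ContDiffAt ℝ 1 G x0) (hl : ContDiffAt ℝ 1 lam x0) (G0 : G x0 = 0) (l0 : lam x0 = 0)
    (hbij : Function.Bijective ((fderiv ℝ G x0).prod (fderiv ℝ lam x0))) :
    ∃ ψ : W → E, ContDiffAt ℝ 1 ψ 0 ∧ ψ 0 = x0 ∧
      (∀ᶠ c in 𝓝 (0 : W), G (ψ c) = 0 ∧ lam (ψ c) = c) ∧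
      (∀ᶠ x in 𝓝 x0, G x = 0 → ψ (lam x) = x) := by
  have : CompleteSpace W := FiniteDimensional.complete ℝ W
  let e := ContinuousLinearEquiv.ofBijective ((fderiv ℝ G x0).prod (fderiv ℝ lam x0))
    (LinearMap.ker_eq_bot.2 hbij.1) (LinearMap.range_eq_top.2 hbij.2)
  have hΦ : ContDiffAt ℝ 1 (fun x => (G x, lam x)) x0 := hG.prodMk hl
  have hΦ' : HasFDerivAt (fun x => (G x, lam x)) (e : E →L[ℝ] F × W) x0 := by
    rw [ContinuousLinearEquiv.coe_ofBijective]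
    exact (hG.differentiableAt one_ne_zero).hasFDerivAt.prodMk
      (hl.differentiableAt one_ne_zero).hasFDerivAt
  have hs := hΦ.hasStrictFDerivAt' hΦ' one_ne_zero
  have hi := hΦ.to_localInverse hΦ' one_ne_zero
  have h0 := hΦ.localInverse_apply_image hΦ' one_ne_zero
  simp only [G0, l0] at hi h0
  have hj : ContDiffAt ℝ 1 (fun c : W => ((0 : F), c)) 0 := contDiffAt_const.prodMk contDiffAt_id
  refine ⟨fun c => hΦ.localInverse hΦ' one_ne_zero (0, c), hi.comp 0 hj, h0, ?_, ?_⟩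
  · have h1 := hs.eventually_right_inverse
    simp only [G0, l0] at h1
    filter_upwards [hj.continuousAt h1] with c hc
    exact ⟨congrArg Prod.fst hc, congrArg Prod.snd hc⟩
  · filter_upwards [hs.eventually_left_inverse] with x hx h
    simp only [h] at hx
    exact hx

/-- **KUR1.** Exactly one regular orbit of zeros of size `ε` near the fixed point. -/
theorem one_orbit [FiniteDimensional ℝ W] [Nontrivial W] {Γ : Type*}
    (act : Γ → E → E) (sig : Γ → W → W) {G : E → F} {lam : E → W} {P : E → V} {x0 : E}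
    (hG : ContDiffAt ℝ 1 G x0) (hl : ContDiffAt ℝ 1 lam x0) (hP : ContDiffAt ℝ 1 P x0)
    (G0 : G x0 = 0) (l0 : lam x0 = 0) (P0 : P x0 = 0)
    (hbij : Function.Bijective ((fderiv ℝ G x0).prod (fderiv ℝ lam x0)))
    (hinj : ∀ k, fderiv ℝ G x0 k = 0 → fderiv ℝ P x0 k = 0 → k = 0)
    (heq : ∀ U ∈ 𝓝 x0, ∀ᶠ x in 𝓝 x0, ∀ g, act g x ∈ U)
    (hz : ∀ᶠ x in 𝓝 x0, G x = 0 → ∀ g,
      G (act g x) = 0 ∧ lam (act g x) = sig g (lam x) ∧ ‖P (act g x)‖ = ‖P x‖)
    (htr : ∀ w w' : W, ‖w‖ = ‖w'‖ → ∃ g, sig g w = w') :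
    ∃ U ∈ 𝓝 x0,
      (∀ x ∈ U, ∀ y ∈ U, G x = 0 → G y = 0 → ‖P x‖ = ‖P y‖ → ∃ g, act g x = y) ∧
      (∀ x ∈ U, G x = 0 → ∀ g, act g x = x ↔ sig g (lam x) = lam x) ∧
      (∀ x ∈ U, G x = 0 → x ≠ x0 → lam x ≠ 0 ∧ P x ≠ 0) ∧
      (∀ x ∈ U, Function.Bijective ((fderiv ℝ G x).prod (fderiv ℝ lam x))) ∧
      (∀ x ∈ U, G x = 0 → x ≠ x0 → ∀ f t, ∃ k,
        fderiv ℝ G x k = f ∧ ⟪P x, fderiv ℝ P x k⟫_ℝ = t) ∧
      ∀ U' ∈ 𝓝 x0, ∃ ε0 > 0, ∀ ε ∈ Ioo 0 ε0, ∃ x ∈ U', G x = 0 ∧ ‖P x‖ = ε := by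
  have : CompleteSpace W := FiniteDimensional.complete ℝ W
  obtain ⟨ψ, hψ, ψ0, hr, hlft⟩ := exists_param hG hl G0 l0 hbij
  have hψt : Tendsto ψ (𝓝 0) (𝓝 x0) := ψ0 ▸ hψ.continuousAt
  have hlt : Tendsto lam (𝓝 x0) (𝓝 0) := l0 ▸ hl.continuousAt
  have dG : ∀ᶠ x in 𝓝 x0, DifferentiableAt ℝ G x :=
    (hG.eventually (by simp)).mono fun c hc => hc.differentiableAt one_ne_zero
  have dl : ∀ᶠ x in 𝓝 x0, DifferentiableAt ℝ lam x :=
    (hl.eventually (by simp)).mono fun c hc => hc.differentiableAt one_ne_zero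
  have dP : ∀ᶠ x in 𝓝 x0, DifferentiableAt ℝ P x :=
    (hP.eventually (by simp)).mono fun c hc => hc.differentiableAt one_ne_zero
  have dψ : ∀ᶠ c in 𝓝 (0 : W), DifferentiableAt ℝ ψ c :=
    (hψ.eventually (by simp)).mono fun c hc => hc.differentiableAt one_ne_zero
  -- derivative of `ψ` lands in the kernel and splits `lam`
  have hker : ∀ᶠ c in 𝓝 (0 : W), ∀ v, fderiv ℝ G (ψ c) (fderiv ℝ ψ c v) = 0 ∧
      fderiv ℝ lam (ψ c) (fderiv ℝ ψ c v) = v ∧
      fderiv ℝ (fun c => P (ψ c)) c v = fderiv ℝ P (ψ c) (fderiv ℝ ψ c v) := by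
    filter_upwards [hr.eventually_nhds, hψt dG, hψt dl, hψt dP, dψ] with c h1 h2 h3 h4 h5 v
    have a1 : fderiv ℝ (G ∘ ψ) c = 0 := by
      have : G ∘ ψ =ᶠ[𝓝 c] fun _ => 0 := h1.mono fun y hy => hy.1
      rw [this.fderiv_eq]; simp
    have a2 : fderiv ℝ (lam ∘ ψ) c = ContinuousLinearMap.id ℝ W := by
      have : lam ∘ ψ =ᶠ[𝓝 c] id := h1.mono fun y hy => hy.2
      rw [this.fderiv_eq]; simp
    rw [fderiv_comp c h2 h5] at a1
    rw [fderiv_comp c h3 h5] at a2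
    refine ⟨by simpa using congrArg (fun L => L v) a1, by simpa using congrArg (fun L => L v) a2,
      ?_⟩
    have a3 := fderiv_comp c h4 h5
    exact congrArg (fun L => L v) a3
  have hQ : ContDiffAt ℝ 1 (fun c => P (ψ c)) 0 := (ψ0 ▸ hP : ContDiffAt ℝ 1 P (ψ 0)).comp 0 hψ
  have hA : Function.Injective (fderiv ℝ (fun c => P (ψ c)) 0) := by
    refine (injective_iff_map_eq_zero _).2 fun v hv => ?_
    obtain ⟨k1, k2, k3⟩ := hker.self_of_nhds v
    rw [k3] at hv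
    rw [ψ0] at k1 k2 hv
    rw [← k2, hinj _ k1 hv, map_zero]
  obtain ⟨r1, r1p, hrad⟩ := radial_pos hQ (by simp [ψ0, P0]) hA
  obtain ⟨w, hw⟩ := exists_norm_eq W zero_le_one
  -- neighbourhoods
  have hact : ∀ᶠ x in 𝓝 x0, ∀ g, G (act g x) = 0 → ψ (lam (act g x)) = act g x := heq _ hlft
  have hbj : ∀ᶠ x in 𝓝 x0, Function.Bijective ((fderiv ℝ G x).prod (fderiv ℝ lam x)) := by
    refine eventually_bij (A := fun x => (fderiv ℝ G x).prod (fderiv ℝ lam x)) ?_ hbij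
    exact ((ContinuousLinearMap.prodₗᵢ ℝ).continuous.continuousAt).comp
      ((hG.continuousAt_fderiv one_ne_zero).prodMk (hl.continuousAt_fderiv one_ne_zero))
  obtain ⟨hmono, hcont⟩ := ray_mono hrad hw
  have hsm : ∀ᶠ x in 𝓝 x0, ‖lam x‖ < r1 := by
    have := Metric.tendsto_nhds.1 hlt _ r1p
    simpa using this
  refine ⟨_, hlft.and (hact.and (hz.and (hbj.and (hsm.and (hlt hker))))), ?_, ?_, ?_, ?_, ?_, ?_⟩
  · rintro x ⟨-, x2, x3, -, x5, -⟩ y ⟨y1, y2, y3, -, y5, -⟩ gx gy hn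
    have key : ∀ z, G z = 0 → (∀ g, G (act g z) = 0 → ψ (lam (act g z)) = act g z) →
        (∀ g, G (act g z) = 0 ∧ lam (act g z) = sig g (lam z) ∧ ‖P (act g z)‖ = ‖P z‖) →
        ‖P (ψ (‖lam z‖ • w))‖ = ‖P z‖ := fun z _ z2 z3 => by
      obtain ⟨g, hg⟩ := htr (lam z) (‖lam z‖ • w) (by simp [norm_smul, hw])
      obtain ⟨b1, b2, b3⟩ := z3 g
      rw [← hg, ← b2, z2 g b1, b3]
    have hab : ‖lam x‖ = ‖lam y‖ := by
      refine hmono.injOn ⟨norm_nonneg _, x5⟩ ⟨norm_nonneg _, y5⟩ ?_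
      rw [key x gx x2 (x3 gx), key y gy y2 (y3 gy), hn]
    obtain ⟨g, hg⟩ := htr _ _ hab
    obtain ⟨b1, b2, -⟩ := x3 gx g
    exact ⟨g, by rw [← x2 g b1, b2, hg, y1 gy]⟩
  · rintro x ⟨x1, x2, x3, -⟩ gx g
    obtain ⟨b1, b2, -⟩ := x3 gx g
    exact ⟨fun h => by rw [← b2, h], fun h => by rw [← x2 g b1, b2, h, x1 gx]⟩
  · rintro x ⟨x1, -, -, -, x5, -⟩ gx hx
    have h1 : lam x ≠ 0 := fun h => hx (by rw [← x1 gx, h, ψ0])
    refine ⟨h1, fun h => ?_⟩
    have := (hrad _ x5).2 h1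
    simp only [x1 gx, h, inner_zero_left, lt_self_iff_false] at this
  · rintro x ⟨-, -, -, x4, -⟩
    exact x4
  · rintro x ⟨x1, -, -, x4, x5, x6⟩ gx hx f t
    have h1 : lam x ≠ 0 := fun h => hx (by rw [← x1 gx, h, ψ0])
    have h2 := (hrad _ x5).2 h1
    obtain ⟨k1, -, k3⟩ := x6 (lam x)
    rw [k3] at h2
    simp only [x1 gx] at h2 k1
    obtain ⟨k, hk⟩ := x4.2 (f, 0)
    have hk1 : fderiv ℝ G x k = f := congrArg Prod.fst hk
    set k0 := fderiv ℝ ψ (lam x) (lam x)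
    refine ⟨k + ((t - ⟪P x, fderiv ℝ P x k⟫_ℝ) / ⟪P x, fderiv ℝ P x k0⟫_ℝ) • k0, ?_, ?_⟩
    · simp [hk1, k1]
    · rw [map_add, map_smul, inner_add_right, inner_smul_right, div_mul_cancel₀ _ h2.ne']
      ring
  · intro U' hU'
    obtain ⟨r2, r2p, h2⟩ := Metric.eventually_nhds_iff.1 (hr.and (hψt hU'))
    set r := min r1 r2 / 2 with hrdef
    have m0 : 0 < min r1 r2 := lt_min r1p r2p
    have rp : 0 < r := by positivity
    have rl1 : r < r1 := by have := min_le_left r1 r2; linarith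
    have rl2 : r < r2 := by have := min_le_right r1 r2; linarith
    have hpos : 0 < ‖P (ψ (r • w))‖ := by
      have := hmono ⟨le_rfl, r1p⟩ ⟨rp.le, rl1⟩ rp
      simpa [ψ0, P0] using this
    refine ⟨_, hpos, fun ε hε => ?_⟩
    have hc : ContinuousOn (fun s : ℝ => ‖P (ψ (s • w))‖) (Icc 0 r) :=
      hcont.mono fun s hs => ⟨hs.1, hs.2.trans_lt rl1⟩
    obtain ⟨s, hs, hse⟩ := intermediate_value_Icc rp.le hc (a := 0) (b := r)
      (show ε ∈ Icc _ _ from ⟨by simpa [ψ0, P0] using hε.1.le, hε.2.le⟩)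
    have := h2 (y := s • w) (by
      rw [dist_zero_right, norm_smul, hw, mul_one, Real.norm_eq_abs, abs_of_nonneg hs.1]
      exact hs.2.trans_lt rl2)
    exact ⟨_, this.2, this.1.1, hse⟩

/-- **KUR0.** A zero with injective closed-range derivative is isolated. -/
theorem isolated {G : E → F} {T : E →L[ℝ] F} {x0 : E} (hG : HasFDerivAt G T x0) (G0 : G x0 = 0)
    (hinj : Function.Injective T) (hcl : IsClosed (range T)) :
    ∀ᶠ x in 𝓝 x0, G x = 0 → x = x0 := by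
  obtain ⟨K, hK⟩ := T.antilipschitz_of_injective_of_isClosed_range hinj hcl
  have hK' : ∀ c, ‖c‖ ≤ K * ‖T c‖ := fun c => by simpa using hK.le_mul_dist c 0
  have hη : (0 : ℝ) < 1 / (2 * (K + 1)) := by positivity
  filter_upwards [hG.isLittleO.def hη] with x hx gx
  rw [gx, G0, sub_zero, zero_sub, norm_neg] at hx
  have h1 := hK' (x - x0)
  have h2 : (K : ℝ) * ‖T (x - x0)‖ ≤ (K + 1) * (1 / (2 * (K + 1)) * ‖x - x0‖) := by
    gcongr; linarith
  have h3 : ((K : ℝ) + 1) * (1 / (2 * (K + 1)) * ‖x - x0‖) = ‖x - x0‖ / 2 := by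
    field_simp
  have : ‖x - x0‖ ≤ 0 := by linarith
  exact sub_eq_zero.1 (norm_le_zero_iff.1 this)

end Kur94
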