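import Crest.Agent.X212.Kur94.One

/-! Kuranishi at an `S¹`-fixed point with a complex parameter `P x ∈ V` of weight `chi`.
Input: `DG` onto, `dim_ℝ ker DG = 2`, `P` injective on the kernel.  Output: for small `ε` exactly
one orbit of zeros with `‖P x‖ = ε`, with stabiliser `ker chi`, regular. -/

namespace Kur94
open Set Filter Topology Metric
open scoped InnerProductSpace

variable {E F W : Type*} [NormedAddCommGroup E] [NormedSpace ℝ E] [CompleteSpace E]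
  [NormedAddCommGroup F] [NormedSpace ℝ F] [CompleteSpace F]
  [NormedAddCommGroup W] [NormedSpace ℝ W]

/-- a map killing `ker T` is small on almost-kernel vectors. -/
theorem small_on_ker [CompleteSpace W] {V' : Type*} [NormedAddCommGroup V'] [NormedSpace ℝ V']
    (T : E →L[ℝ] F) (l : E →L[ℝ] W) (hb : Function.Bijective (T.prod l)) (φ : E →L[ℝ] V')
    (hφ : ∀ k, T k = 0 → φ k = 0) {η : ℝ} (hη : 0 < η) :
    ∃ δ > 0, ∀ k, ‖T k‖ ≤ δ * ‖k‖ → ‖φ k‖ ≤ η * ‖l k‖ := by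
  let e := ContinuousLinearEquiv.ofBijective (T.prod l)
    (LinearMap.ker_eq_bot.2 hb.1) (LinearMap.range_eq_top.2 hb.2)
  set R : F × W →L[ℝ] E := (e.symm : (F × W) ≃L[ℝ] E).toContinuousLinearMap with hR
  have hRe : ∀ k, R (T k, l k) = k := fun k => e.symm_apply_apply k
  have hTR : ∀ c, T (R (0, c)) = 0 := fun c => congrArg Prod.fst (e.apply_symm_apply (0, c))
  set C := ‖R‖ + ‖φ‖ + 1 with hC
  have C1 : 1 ≤ C := by have := norm_nonneg R; have := norm_nonneg φ; linarith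
  have CR : ‖R‖ ≤ C := by have := norm_nonneg φ; linarith
  have Cφ : ‖φ‖ ≤ C := by have := norm_nonneg R; linarith
  refine ⟨min (1 / (2 * C)) (η / (2 * C ^ 3)), by positivity, fun k hk => ?_⟩
  set δ := min (1 / (2 * C)) (η / (2 * C ^ 3)) with hδ
  have hsplit : k = R (T k, 0) + R (0, l k) := by rw [← map_add]; simp [hRe]
  have n1 : ‖R (T k, 0)‖ ≤ C * (δ * ‖k‖) := by
    refine (R.le_opNorm _).trans ?_
    have : ‖((T k, 0) : F × W)‖ = ‖T k‖ := by simp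
    rw [this]; gcongr
  have n2 : ‖R (0, l k)‖ ≤ C * ‖l k‖ := by
    refine (R.le_opNorm _).trans ?_
    have : ‖((0, l k) : F × W)‖ = ‖l k‖ := by simp
    rw [this]; gcongr
  have d1 : C * δ ≤ 1 / 2 := by
    calc C * δ ≤ C * (1 / (2 * C)) := by gcongr; exact min_le_left _ _
      _ = 1 / 2 := by field_simp
  have d2 : 2 * C ^ 3 * δ ≤ η := by
    calc 2 * C ^ 3 * δ ≤ 2 * C ^ 3 * (η / (2 * C ^ 3)) := by gcongr; exact min_le_right _ _
      _ = η := by field_simp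
  have δ0 : 0 ≤ δ := by positivity
  have n3 : ‖k‖ ≤ 2 * C * ‖l k‖ := by
    have h1 : ‖k‖ ≤ ‖R (T k, 0)‖ + ‖R (0, l k)‖ := by
      conv_lhs => rw [hsplit]
      exact norm_add_le _ _
    have h2 : C * (δ * ‖k‖) ≤ 1 / 2 * ‖k‖ := by rw [← mul_assoc]; gcongr
    linarith
  have e1 : φ k = φ (R (T k, 0)) := by
    conv_lhs => rw [hsplit]
    rw [map_add, hφ _ (hTR _), add_zero]
  calc ‖φ k‖ ≤ ‖φ‖ * ‖R (T k, 0)‖ := e1 ▸ φ.le_opNorm _
    _ ≤ C * (C * (δ * (2 * C * ‖l k‖))) := by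
      gcongr
      exact n1.trans (by gcongr)
    _ = 2 * C ^ 3 * δ * ‖l k‖ := by ring
    _ ≤ _ := by gcongr

variable {V : Type*} [NormedAddCommGroup V] [InnerProductSpace ℂ V] [NormedSpace ℝ V]
  [IsScalarTower ℝ ℂ V]

/-- a real plane invariant under `i` is a complex line. -/
theorem line_of_plane (S : Submodule ℝ V) (h2 : Module.finrank ℝ S = 2)
    (hI : ∀ w ∈ S, Complex.I • w ∈ S) :
    ∃ v : V, ‖v‖ = 1 ∧ ∀ w, w ∈ S ↔ ∃ c : ℂ, w = c • v := by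
  have : FiniteDimensional ℝ S := .of_finrank_pos (by omega)
  have : Nontrivial S := Module.nontrivial_of_finrank_pos (R := ℝ) (by omega)
  obtain ⟨v, hv⟩ := exists_norm_eq S zero_le_one
  have hc : ∀ c : ℂ, c • (v : V) ∈ S := fun c => by
    have : c • (v : V) = c.re • (v : V) + c.im • Complex.I • (v : V) := by
      conv_lhs => rw [← Complex.re_add_im c]
      rw [add_smul, mul_smul, ← smul_one_smul ℂ c.re (v : V),
        ← smul_one_smul ℂ c.im (Complex.I • (v : V))]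
      simp
    rw [this]
    exact S.add_mem (S.smul_mem _ v.2) (S.smul_mem _ (hI _ v.2))
  let m : ℂ →ₗ[ℝ] S :=
    { toFun := fun c => ⟨c • (v : V), hc c⟩
      map_add' := fun a b => Subtype.ext (add_smul _ _ _)
      map_smul' := fun r a => Subtype.ext (smul_assoc _ _ _) }
  have v0 : (v : V) ≠ 0 := fun h => by
    have : ‖(v : V)‖ = 1 := hv
    simp [h] at this
  have hi : Function.Injective m := (injective_iff_map_eq_zero _).2 fun c h =>
    (smul_eq_zero.1 (congrArg Subtype.val h)).resolve_right v0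
  have hs := (LinearMap.injective_iff_surjective_of_finrank_eq_finrank
    (by rw [h2, Complex.finrank_real_complex])).1 hi
  refine ⟨v, hv, fun w => ⟨fun hw => ?_, by rintro ⟨c, rfl⟩; exact hc c⟩⟩
  obtain ⟨c, h⟩ := hs ⟨w, hw⟩
  exact ⟨c, (congrArg Subtype.val h).symm⟩

/-- the real inner product on the given real normed space. -/
@[reducible] noncomputable def realIP : InnerProductSpace ℝ V :=
  { (inferInstance : NormedSpace ℝ V) with
    inner := fun x y => (⟪x, y⟫_ℂ).re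
    norm_sq_eq_re_inner := fun x => norm_sq_eq_re_inner (𝕜 := ℂ) x
    conj_inner_symm := fun x y => inner_re_symm (𝕜 := ℂ) y x
    add_left := fun x y z => by simp
    smul_left := fun x y r => by
      rw [← smul_one_smul ℂ r x, inner_smul_left]; simp }

/-- `y ↦ ⟪v, y⟫` as a real continuous linear map. -/
noncomputable def ipL (v : V) : V →L[ℝ] ℂ := (innerSL ℂ v).restrictScalars ℝ

@[simp] theorem ipL_apply (v y : V) : ipL v y = ⟪v, y⟫_ℂ := rfl

/-- the kernel of `DG` is mapped by `P` to an `i`-invariant subspace. -/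
theorem ker_invariant {G : E → F} {x0 : E} (hG : ContDiffAt ℝ 1 G x0) (G0 : G x0 = 0)
    (hon : Function.Surjective (fderiv ℝ G x0)) [FiniteDimensional ℝ (fderiv ℝ G x0).ker]
    (P : E →L[ℝ] V) {a : E → E} {u : ℂ} (ha : DifferentiableAt ℝ a x0) (a0 : a x0 = x0)
    (hz : ∀ᶠ x in 𝓝 x0, G x = 0 → G (a x) = 0 ∧ P (a x) = u • P x) {k : E}
    (hk : fderiv ℝ G x0 k = 0) : ∃ k', fderiv ℝ G x0 k' = 0 ∧ P k' = u • P k := by
  obtain ⟨π, hπ⟩ := Submodule.ClosedComplemented.of_finiteDimensional (fderiv ℝ G x0).ker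
  have hl : ContDiffAt ℝ 1 (fun x => π (x - x0)) x0 := by fun_prop
  have hl' : HasFDerivAt (fun x => π (x - x0)) π x0 :=
    π.hasFDerivAt.comp x0 ((hasFDerivAt_id x0).sub_const x0)
  have hb : Function.Bijective ((fderiv ℝ G x0).prod (fderiv ℝ (fun x => π (x - x0)) x0)) := by
    rw [hl'.fderiv]
    refine ⟨(injective_iff_map_eq_zero _).2 fun y hy => ?_, fun ⟨f, c⟩ => ?_⟩
    · have h1 : fderiv ℝ G x0 y = 0 := congrArg Prod.fst hy
      have h2 : π y = 0 := congrArg Prod.snd hy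
      have := hπ ⟨y, h1⟩
      exact congrArg Subtype.val (this.symm.trans h2)
    · obtain ⟨y, hy⟩ := hon f
      have h3 : fderiv ℝ G x0 ((c - π y : (fderiv ℝ G x0).ker) : E) = 0 := (c - π y).2
      refine ⟨y + (c - π y : (fderiv ℝ G x0).ker), Prod.ext ?_ ?_⟩
      · change fderiv ℝ G x0 _ = f
        rw [map_add, h3, hy, add_zero]
      · change π _ = c
        rw [map_add, hπ]; abel
  obtain ⟨ψ, hψ, ψ0, hr, -⟩ := exists_param hG hl G0 (by simp) hb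
  have hψt : Tendsto ψ (𝓝 0) (𝓝 x0) := by
    have := hψ.continuousAt.tendsto
    rwa [ψ0] at this
  have dψ := (hψ.differentiableAt one_ne_zero).hasFDerivAt
  have dG := (hG.differentiableAt one_ne_zero).hasFDerivAt
  set D := fderiv ℝ ψ 0
  have zero_of : ∀ {f : (fderiv ℝ G x0).ker → F} {L : (fderiv ℝ G x0).ker →L[ℝ] F},
      HasFDerivAt f L 0 → (f =ᶠ[𝓝 0] fun _ => 0) → L = 0 := fun h1 h2 =>
    h1.unique ((hasFDerivAt_const (0 : F) 0).congr_of_eventuallyEq h2)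
  have dG0 : HasFDerivAt G (fderiv ℝ G x0) (ψ 0) := by rw [ψ0]; exact dG
  have hl0 : HasFDerivAt (fun x => π (x - x0)) π (ψ 0) := by rw [ψ0]; exact hl'
  have ha0 : HasFDerivAt a (fderiv ℝ a x0) (ψ 0) := by rw [ψ0]; exact ha.hasFDerivAt
  have b1 : (fderiv ℝ G x0).comp D = 0 := zero_of (dG0.comp 0 dψ) (hr.mono fun c h => h.1)
  have b2 : π.comp D = ContinuousLinearMap.id ℝ _ :=
    (hl0.comp 0 dψ).unique
      ((hasFDerivAt_id 0).congr_of_eventuallyEq (hr.mono fun c h => h.2))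
  have hD : D ⟨k, hk⟩ = k := by
    have c1 : fderiv ℝ G x0 (D ⟨k, hk⟩) = 0 := congrArg (fun L => L ⟨k, hk⟩) b1
    have c2 : π (D ⟨k, hk⟩) = ⟨k, hk⟩ := congrArg (fun L => L ⟨k, hk⟩) b2
    exact congrArg Subtype.val ((hπ ⟨_, c1⟩).symm.trans c2)
  have da : HasFDerivAt (a ∘ ψ) ((fderiv ℝ a x0).comp D) 0 := ha0.comp 0 dψ
  have hz' : ∀ᶠ c in 𝓝 0, G (a (ψ c)) = 0 ∧ P (a (ψ c)) = u • P (ψ c) := by
    filter_upwards [hr, hψt hz] with c h1 h2 using h2 h1.1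
  have dG' : HasFDerivAt G (fderiv ℝ G x0) ((a ∘ ψ) 0) := by simpa [ψ0, a0] using dG
  have b3 := zero_of (dG'.comp 0 da) (hz'.mono fun c h => h.1)
  have b4 := (P.hasFDerivAt.comp 0 da).unique
    (((P.hasFDerivAt.comp 0 dψ).const_smul u).congr_of_eventuallyEq (hz'.mono fun c h => h.2))
  refine ⟨fderiv ℝ a x0 k, ?_, ?_⟩
  · simpa [hD] using congrArg (fun L => L ⟨k, hk⟩) b3
  · simpa [hD] using congrArg (fun L => L ⟨k, hk⟩) b4

/-- **KUR.** One regular orbit for every small size of the parameter. -/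
theorem param_one {Γ : Type*} (chi : Γ → ℂ) (act : Γ → E → E) (P : E →L[ℝ] V) {G : E → F}
    {x0 : E} (hG : ContDiffAt ℝ 1 G x0) (G0 : G x0 = 0) (P0 : P x0 = 0)
    (hon : Function.Surjective (fderiv ℝ G x0))
    (hdim : Module.finrank ℝ (fderiv ℝ G x0).ker = 2)
    (hT : ∀ k, fderiv ℝ G x0 k = 0 → P k = 0 → k = 0)
    (hchi : ∀ g, ‖chi g‖ = 1) (hsurj : ∀ u : ℂ, ‖u‖ = 1 → ∃ g, chi g = u)
    (hd : ∀ g, DifferentiableAt ℝ (act g) x0)
    (heq : ∀ U ∈ 𝓝 x0, ∀ᶠ x in 𝓝 x0, ∀ g, act g x ∈ U)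
    (hz : ∀ᶠ x in 𝓝 x0, G x = 0 → ∀ g, G (act g x) = 0 ∧ P (act g x) = chi g • P x) :
    ∃ U ∈ 𝓝 x0,
      (∀ x ∈ U, ∀ y ∈ U, G x = 0 → G y = 0 → ‖P x‖ = ‖P y‖ → ∃ g, act g x = y) ∧
      (∀ x ∈ U, G x = 0 → x ≠ x0 → P x ≠ 0 ∧ (∀ g, act g x = x ↔ chi g = 1) ∧
        ∀ (f : F) (c : ℂ), ∃! k, fderiv ℝ G x k = f ∧ ⟪P x, P k⟫_ℂ = c) ∧
      ∀ U' ∈ 𝓝 x0, ∃ ε0 > 0, ∀ ε ∈ Ioo 0 ε0, ∃ x ∈ U', G x = 0 ∧ ‖P x‖ = ε := by
  have : FiniteDimensional ℝ (fderiv ℝ G x0).ker := .of_finrank_pos (by omega)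
  have a0 : ∀ g, act g x0 = x0 := fun g => by
    by_contra h
    exact (heq _ (isOpen_compl_singleton.mem_nhds (Ne.symm h))).self_of_nhds g rfl
  -- the complex line
  obtain ⟨v, hv, hS⟩ : ∃ v : V, ‖v‖ = 1 ∧
      ∀ w, (∃ k, fderiv ℝ G x0 k = 0 ∧ P k = w) ↔ ∃ c : ℂ, w = c • v := by
    refine line_of_plane ((fderiv ℝ G x0).ker.map (P : E →ₗ[ℝ] V)) ?_ ?_
    · rw [← hdim, ← LinearMap.range_domRestrict]
      refine LinearMap.finrank_range_of_inj ((injective_iff_map_eq_zero _).2 fun k hk => ?_)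
      exact Subtype.ext (hT _ k.2 hk)
    · rintro _ ⟨k, hk, rfl⟩
      obtain ⟨g, hg⟩ := hsurj Complex.I (by simp)
      exact ker_invariant hG G0 hon P (hd g) (a0 g) (hz.mono fun x h gx => hg ▸ h gx g) hk
  have hvv : ⟪v, v⟫_ℂ = 1 := by simp [hv]
  set l : E →L[ℝ] ℂ := (ipL v).comp P with hl
  have hlk : ∀ k, l k = ⟪v, P k⟫_ℂ := fun k => rfl
  have hPk : ∀ k, fderiv ℝ G x0 k = 0 → P k = l k • v := fun k hk => by
    obtain ⟨c, hc⟩ := (hS _).1 ⟨k, hk, rfl⟩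
    rw [hlk, hc, inner_smul_right, hvv, mul_one]
  have hb : Function.Bijective ((fderiv ℝ G x0).prod l) := by
    refine ⟨(injective_iff_map_eq_zero _).2 fun y hy => ?_, fun ⟨f, c⟩ => ?_⟩
    · have h1 : fderiv ℝ G x0 y = 0 := congrArg Prod.fst hy
      have h2 : l y = 0 := congrArg Prod.snd hy
      exact hT y h1 (by rw [hPk y h1, h2, zero_smul])
    · obtain ⟨y, hy⟩ := hon f
      obtain ⟨k, k1, k2⟩ := (hS _).2 ⟨c - l y, rfl⟩
      refine ⟨y + k, Prod.ext ?_ ?_⟩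
      · change fderiv ℝ G x0 _ = f
        rw [map_add, k1, hy, add_zero]
      · change l _ = c
        rw [map_add, hlk k, k2, inner_smul_right, hvv]; ring
  let _ : InnerProductSpace ℝ V := realIP
  obtain ⟨U, hU, u1, u2, u3, u4, -, u6⟩ := one_orbit (W := ℂ) (V := V) act
    (fun g c => chi g * c) (lam := l) (P := P) hG l.contDiff.contDiffAt P.contDiff.contDiffAt G0
    (by rw [hlk, P0, inner_zero_right]) P0 (by rwa [l.fderiv]) (by simpa using hT) heq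
    (hz.mono fun x h gx g => ⟨(h gx g).1, by rw [hlk, hlk, (h gx g).2, inner_smul_right],
      by rw [(h gx g).2, norm_smul, hchi, one_mul]⟩)
    (fun w w' h => by
      rcases eq_or_ne w 0 with rfl | w0
      · obtain ⟨g, -⟩ := hsurj 1 (by simp)
        exact ⟨g, by rw [mul_zero]; exact (norm_eq_zero.1 (by simpa using h.symm)).symm⟩
      · obtain ⟨g, hg⟩ := hsurj (w' / w) (by
          rw [norm_div, ← h, div_self (norm_ne_zero_iff.2 w0)])
        exact ⟨g, by rw [hg, div_mul_cancel₀ _ w0]⟩)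
  -- the part of `P` orthogonal to `v`
  set φ : E →L[ℝ] V := P - (((ContinuousLinearMap.id ℂ ℂ).smulRight v).restrictScalars ℝ).comp l
  have hφ : ∀ k, φ k = P k - l k • v := fun k => rfl
  obtain ⟨δ, δp, hδ⟩ := small_on_ker _ l hb φ (fun k hk => by rw [hφ, ← hPk k hk, sub_self])
    (η := 1 / 2) (by norm_num)
  have e1 : ∀ᶠ x in 𝓝 x0, G x = 0 → ‖φ x‖ ≤ 1 / 2 * ‖l x‖ := by
    filter_upwards [(hG.differentiableAt one_ne_zero).hasFDerivAt.isLittleO.def δp] with x hx gx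
    rw [gx, G0, sub_zero, zero_sub, norm_neg] at hx
    have := hδ _ hx
    rwa [hφ, hlk, map_sub, P0, sub_zero] at this
  have e2 : ∀ᶠ x in 𝓝 x0, ∀ k, fderiv ℝ G x k = 0 → ‖φ k‖ ≤ 1 / 2 * ‖l k‖ := by
    filter_upwards [Metric.tendsto_nhds.1 (hG.continuousAt_fderiv one_ne_zero) _ δp]
      with x hx k hk
    refine hδ k ?_
    rw [dist_comm, dist_eq_norm] at hx
    calc ‖fderiv ℝ G x0 k‖ = ‖(fderiv ℝ G x0 - fderiv ℝ G x) k‖ := by simp [hk]
      _ ≤ _ := ContinuousLinearMap.le_opNorm _ _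
      _ ≤ _ := by gcongr
  refine ⟨_, Filter.inter_mem hU (e1.and e2), fun x hx y hy => u1 x hx.1 y hy.1, ?_, u6⟩
  rintro x ⟨hx, x1, x2⟩ gx hne
  obtain ⟨l0, p0⟩ := u3 x hx gx hne
  refine ⟨p0, fun g => (u2 x hx gx g).trans (mul_eq_right₀ l0), ?_⟩
  have hinj : ∀ k, fderiv ℝ G x k = 0 → ⟪P x, P k⟫_ℂ = 0 → k = 0 := fun k hk h0 => by
    have o : ∀ y, ⟪v, φ y⟫_ℂ = 0 := fun y => by
      rw [hφ, inner_sub_right, inner_smul_right, hvv, hlk]; ring
    have o' : ∀ y, ⟪φ y, v⟫_ℂ = 0 := fun y => inner_eq_zero_symm.1 (o y)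
    have dec : ∀ y, P y = l y • v + φ y := fun y => by rw [hφ]; abel
    rw [dec x, dec k] at h0
    simp only [inner_add_left, inner_add_right, inner_smul_left, inner_smul_right, o, o', hvv,
      mul_zero, mul_one, add_zero, zero_add] at h0
    have n1 : ‖l k‖ * ‖l x‖ = ‖⟪φ x, φ k⟫_ℂ‖ := by
      rw [← norm_neg ⟪φ x, φ k⟫_ℂ, neg_eq_of_add_eq_zero_left h0]; simp
    have n2 : ‖⟪φ x, φ k⟫_ℂ‖ ≤ (1 / 2 * ‖l x‖) * (1 / 2 * ‖l k‖) :=
      (norm_inner_le_norm _ _).trans (by gcongr; exacts [x1 gx, x2 k hk])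
    have n3 : 0 < ‖l x‖ := norm_pos_iff.2 l0
    have n4 : ‖l k‖ ≤ 0 := by nlinarith [norm_nonneg (l k)]
    refine (injective_iff_map_eq_zero _).1 (u4 x hx).1 k (Prod.ext hk ?_)
    rw [l.fderiv]
    exact norm_le_zero_iff.1 n4
  have hbx := u4 x hx
  rw [l.fderiv] at hbx
  let e := LinearEquiv.ofBijective (((fderiv ℝ G x).prod l : E →L[ℝ] F × ℂ) : E →ₗ[ℝ] F × ℂ) hbx
  have he : ∀ f c, fderiv ℝ G x (e.symm (f, c)) = f ∧ l (e.symm (f, c)) = c := fun f c =>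
    ⟨congrArg Prod.fst (e.apply_symm_apply (f, c)), congrArg Prod.snd (e.apply_symm_apply (f, c))⟩
  let h : ℂ →ₗ[ℝ] ℂ := (((ipL (P x)).comp P : E →L[ℝ] ℂ) : E →ₗ[ℝ] ℂ) ∘ₗ
    (e.symm : F × ℂ →ₗ[ℝ] E) ∘ₗ LinearMap.inr ℝ F ℂ
  have hh : ∀ c, h c = ⟪P x, P (e.symm (0, c))⟫_ℂ := fun c => rfl
  have hi : Function.Injective h := (injective_iff_map_eq_zero _).2 fun c hc => by
    rw [← (he 0 c).2, hinj _ (he 0 c).1 hc, map_zero]
  intro f c
  obtain ⟨c', hc'⟩ := LinearMap.injective_iff_surjective.1 hi (c - ⟪P x, P (e.symm (f, 0))⟫_ℂ)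
  refine ⟨e.symm (f, 0) + e.symm (0, c'), ⟨?_, ?_⟩, fun k hk => ?_⟩
  · rw [map_add, (he _ _).1, (he _ _).1, add_zero]
  · rw [map_add, inner_add_right, ← hh, hc']; ring
  · refine sub_eq_zero.1 (hinj _ ?_ ?_)
    · rw [map_sub, map_add, (he _ _).1, (he _ _).1, hk.1]; simp
    · rw [map_sub, map_add, inner_sub_right, inner_add_right, ← hh, hc', hk.2]; ring

end Kur94
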